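import Vale.Agent.P014T.Ah.Vl
import Vale.Agent.P014T.Sy.Sym
import Vale.Agent.P014T.Iv.Inv
import Vale.Agent.P022E.GW.Nil1

/-!
# P014T, block AH: the action of the decomposition group on the complex two-adic numbers
-/

set_option linter.all false

noncomputable section

namespace Vale.Agent.P014T.Ah

open NumberField Polynomial
open Vale.Agent.P022 (Qb GQ)
open Vale.Agent.P022D.W (dec)
open Vale.Agent.P022D.Loc2
open Vale.Agent.P004S.Ga (K O mem_O)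
open Vale.Agent.P014T.Sy

variable {ι : Qb →+* ℂ_[2]} {P : Ideal (𝓞 Qb)} {g j : GQ} {x : ℂ_[2]}

theorem dense (ι : Qb →+* ℂ_[2]) : DenseRange ι := by
  obtain ⟨s, hs⟩ := ex_s ι
  have a : DenseRange (io 2) := Metric.denseRange_iff.2 fun y ε e =>
    (P022E.GW.Nil.dense 2 y e).imp fun z h => by rwa [dist_eq_norm]
  have b := UniformSpace.Completion.denseRange_coe.comp a (UniformSpace.Completion.continuous_coe _)
  refine Dense.mono ?_ b
  rintro _ ⟨z, rfl⟩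
  exact ⟨s.symm z, by rw [← hs, s.apply_symm_apply]; rfl⟩

open Classical in
/-- the isometry attached to an element of the decomposition group -/
def Ind.ro (h : Ind ι P) (g : GQ) : ℂ_[2] →+* ℂ_[2] :=
  if hg : g ∈ dec P then (h.ext hg).choose else RingHom.id _

theorem Ind.ro_iso (h : Ind ι P) (g : GQ) : Isometry (h.ro g) := by
  unfold Ind.ro
  split_ifs with hg
  exacts [(h.ext hg).choose_spec.1, isometry_id]

theorem Ind.ro_nrm (h : Ind ι P) (g : GQ) (x : ℂ_[2]) : ‖h.ro g x‖ = ‖x‖ :=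
  (h.ro_iso g).norm_map_of_map_zero (map_zero _) x

theorem Ind.ro_am (h : Ind ι P) (g : GQ) (t : K) : h.ro g (am t) = am t := by
  unfold Ind.ro
  split_ifs with hg
  exacts [(h.ext hg).choose_spec.2.2 t, rfl]

theorem Ind.ro_emb (h : Ind ι P) (hg : g ∈ dec P) (a : Qb) : h.ro g (ι a) = ι (g a) := by
  rw [Ind.ro, dif_pos hg]
  exact (h.ext hg).choose_spec.2.1 a

theorem Ind.ro_eq (h : Ind ι P) (hg : g ∈ dec P) {σ : ℂ_[2] → ℂ_[2]} (c : Continuous σ)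
    (e : ∀ a, σ (ι a) = ι (g a)) (x : ℂ_[2]) : h.ro g x = σ x :=
  congrFun ((dense ι).equalizer (h.ro_iso g).continuous c (funext fun a =>
    (h.ro_emb hg a).trans (e a).symm)) x

theorem Ind.ro_mul (h : Ind ι P) (hg : g ∈ dec P) (hj : j ∈ dec P) (x : ℂ_[2]) :
    h.ro (g * j) x = h.ro g (h.ro j x) :=
  h.ro_eq (mul_mem hg hj) ((h.ro_iso g).continuous.comp (h.ro_iso j).continuous) (fun a => by
    rw [Function.comp, h.ro_emb hj, h.ro_emb hg, AlgEquiv.mul_apply]) x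

theorem Ind.ro_one (h : Ind ι P) (x : ℂ_[2]) : h.ro 1 x = x :=
  h.ro_eq (one_mem _) continuous_id (fun _ => rfl) x

/-- the elements which are algebraic over the two-adic numbers -/
def AA : Subfield ℂ_[2] := (algebraicClosure K ℂ_[2]).toSubfield

theorem mem_AA : x ∈ AA ↔ IsAlgebraic K x := mem_algebraicClosure_iff

theorem am_AA (t : K) : am t ∈ AA := mem_AA.2 (isAlgebraic_algebraMap t)

theorem AA_rt {n : ℕ} (hn : 0 < n) (h : x ^ n ∈ AA) : x ∈ AA := mem_AA.2 ((mem_AA.1 h).of_pow hn)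

theorem AA_iff : x ∈ AA ↔ ∃ y : PadicAlgCl 2, y = x := by
  refine ⟨fun h => ?_, fun ⟨y, e⟩ => e ▸ mem_AA.2
    ((Algebra.IsAlgebraic.isAlgebraic (R := K) y).algebraMap (A := ℂ_[2]))⟩
  obtain ⟨f, f0, e⟩ := mem_AA.1 h
  exact (IsAlgClosed.splits (f.map (algebraMap K (PadicAlgCl 2)))).mem_range_of_isRoot
    (i := algebraMap (PadicAlgCl 2) ℂ_[2]) (Polynomial.map_ne_zero f0)
    (by rwa [Polynomial.map_map, ← IsScalarTower.algebraMap_eq, IsRoot, eval_map_algebraMap])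

theorem emb_AA (ι : Qb →+* ℂ_[2]) (a : Qb) : ι a ∈ AA :=
  let ⟨s, hs⟩ := ex_s ι
  AA_iff.2 ⟨io 2 (s a), hs a⟩

theorem Ind.ro_aeval (h : Ind ι P) (g : GQ) (f : K[X]) (x : ℂ_[2]) :
    aeval (h.ro g x) f = h.ro g (aeval x f) :=
  aeval_algHom_apply ({ h.ro g with commutes' := h.ro_am g } : ℂ_[2] →ₐ[K] ℂ_[2]) x f

theorem Ind.ro_AA (h : Ind ι P) (g : GQ) (m : x ∈ AA) : h.ro g x ∈ AA :=
  let ⟨f, f0, e⟩ := mem_AA.1 m
  mem_AA.2 ⟨f, f0, by rw [h.ro_aeval, e, map_zero]⟩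

theorem Ind.ro_lc (h : Ind ι P) (m : x ∈ AA) : Lc (dec P) fun g => h.ro g x := by
  obtain ⟨f, f0, e⟩ := mem_AA.1 m
  obtain ⟨δ, d0, hd⟩ := Metric.isOpen_iff.1 ((f.rootSet_finite ℂ_[2]).diff (t := {x})
    ).isClosed.isOpen_compl x fun c => c.2 rfl
  obtain ⟨y, hy⟩ := Metric.denseRange_iff.1 (dense ι) x δ d0
  refine Lc.of_nhds (((P004F.Rc.lc_act y).isOpen_fiber y).mem_nhds rfl) fun g hg w hw k => ?_
  rw [h.ro_mul hg hw]
  congr 1
  by_contra c
  refine hd (a := h.ro w x) ?_ ⟨mem_rootSet.2 ⟨f0, by rw [h.ro_aeval, e, map_zero]⟩, c⟩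
  rw [dist_eq_norm] at hy
  rw [mem_ball_iff_norm, show h.ro w x - x = h.ro w (x - ι y) + -(x - ι y) by
    rw [map_sub, h.ro_emb hw, show w y = y from k]; ring]
  exact nrm_lt (by rwa [h.ro_nrm]) (by rwa [norm_neg])

/-- **the fixed elements** -/
theorem Ind.ro_fx (h : Ind ι P) (m : x ∈ AA) (k : ∀ g ∈ dec P, h.ro g x = x) : ∃ t, am t = x := by
  obtain ⟨y, rfl⟩ := AA_iff.1 m
  obtain ⟨s, hs⟩ := ex_s ι
  obtain ⟨t, e⟩ := (InfiniteGalois.mem_range_algebraMap_iff_fixed (k := ℚ_[2]) y).2 fun σ => by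
    have hg : s⁻¹ * jj 2 σ * s ∈ dec P := (h.dec_jj hs).2 ⟨σ, by group⟩
    have i : Isometry σ := AddMonoidHomClass.isometry_of_norm _ (P022E.GW.Nil.iso 2 σ)
    have c := UniformSpace.Completion.map_coe i.uniformContinuous
    refine (algebraMap (PadicAlgCl 2) ℂ_[2]).injective (((c y).symm.trans ?_).trans (k _ hg))
    refine (h.ro_eq hg UniformSpace.Completion.continuous_map (fun a => ?_) _).symm
    rw [← hs, ← hs]
    refine (c _).trans (congrArg _ ((io_jj 2 σ _).symm.trans (congrArg _ ?_)))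
    rw [AlgEquiv.mul_apply, AlgEquiv.mul_apply, ← AlgEquiv.mul_apply s, mul_inv_cancel,
      AlgEquiv.one_apply]
  exact ⟨t, congrArg (algebraMap (PadicAlgCl 2) ℂ_[2]) e⟩

theorem iv_iv {l : ℕ} (o : P022E.GW.Ov l P) : Sy.Iv (dec P) (Iv.iv P) :=
  ⟨fun z w _ _ => map_add (Iv.iv P) z w, fun _ _ => Iv.iv_b2 o⟩

/-- **the field of the symbol** -/
def Ind.fd (h : Ind ι P) : Fd ℂ_[2] where
  D := dec P
  e := ι
  ρ := h.ro
  A := AA
  ι := Iv.iv P
  mul _ hg _ hj x _ := h.ro_mul hg hj x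
  emb _ := h.ro_emb
  rt _ := AA_rt two_pos
  lc _ := h.ro_lc
  iv := iv_iv h.ov

end Vale.Agent.P014T.Ah
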