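import Mathlib

/-!
# P014T, block AH: the two-adic logarithm on the open disc around one
-/

set_option linter.all false

open Filter Topology

noncomputable section

namespace Vale.Agent.P014T.Ah

variable {C : Type} [NormedField C]

/-- the logarithm -/
def lg (x : C) : C := limUnder atTop fun a : ℕ => (x ^ 2 ^ a - 1) / 2 ^ a

variable [IsUltrametricDist C] {x y : C}

theorem nrm_add {r : ℝ} (h : ‖x‖ ≤ r) (k : ‖y‖ ≤ r) : ‖x + y‖ ≤ r :=
  (IsUltrametricDist.norm_add_le_max _ _).trans (max_le h k)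

theorem nrm_lt {r : ℝ} (h : ‖x‖ < r) (k : ‖y‖ < r) : ‖x + y‖ < r :=
  (IsUltrametricDist.norm_add_le_max _ _).trans_lt (max_lt h k)

theorem near_mul {r : ℝ} (hr : r ≤ 1) (h : ‖x - 1‖ ≤ r) (k : ‖y - 1‖ ≤ r) : ‖x * y - 1‖ ≤ r := by
  rw [show x * y - 1 = (x - 1) * (y - 1) + (x - 1) + (y - 1) by ring]
  refine nrm_add (nrm_add ?_ h) k
  rw [norm_mul]
  exact (mul_le_of_le_one_right (norm_nonneg _) (k.trans hr)).trans h

theorem lt_mul (h : ‖x - 1‖ < 1) (k : ‖y - 1‖ < 1) : ‖x * y - 1‖ < 1 :=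
  (near_mul (max_lt h k).le (le_max_left _ _) (le_max_right _ _)).trans_lt (max_lt h k)

theorem nrm_one (h : ‖x - 1‖ < 1) : ‖x‖ = 1 := by
  have := IsUltrametricDist.norm_add_eq_max_of_norm_ne_norm (x := x - 1) (y := 1) (by simpa using h.ne)
  rw [sub_add_cancel, norm_one] at this
  rw [this, max_eq_right h.le]

theorem nrm_odd (h1 : ‖(2 : C)‖ < 1) {m : ℕ} (h : Odd m) : ‖(m : C)‖ = 1 := by
  obtain ⟨k, rfl⟩ := h
  refine nrm_one ?_
  push_cast
  rw [add_sub_cancel_right, norm_mul]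
  exact mul_lt_one_of_nonneg_of_lt_one_left (norm_nonneg _) h1
    (IsUltrametricDist.norm_natCast_le_one C k)

theorem inv_le (h1 : ‖(2 : C)‖ < 1) : ∃ c : ℕ, ∀ n : ℕ, n ≠ 0 → ‖(n : C)‖⁻¹ ≤ (n : ℝ) ^ c := by
  obtain ⟨c, hc⟩ := pow_unbounded_of_one_lt ‖(2 : C)‖⁻¹ (one_lt_two (α := ℝ))
  refine ⟨c, fun n hn => ?_⟩
  obtain ⟨v, m, hm, rfl⟩ := Nat.exists_eq_two_pow_mul_odd hn
  have h0 : (1 : ℝ) ≤ m := Nat.one_le_cast.2 hm.pos
  rw [Nat.cast_mul, norm_mul, nrm_odd h1 hm, mul_one,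
    Nat.cast_pow, norm_pow, ← inv_pow, Nat.cast_mul, mul_pow, Nat.cast_pow, ← pow_mul, mul_comm v,
    pow_mul, Nat.cast_ofNat, Nat.cast_ofNat]
  exact (pow_le_pow_left₀ (by positivity) hc.le v).trans
    (le_mul_of_one_le_right (by positivity) (one_le_pow₀ h0))

variable [CharZero C]

theorem choose_lim (h1 : ‖(2 : C)‖ < 1) (n : ℕ) :
    Tendsto (fun m : ℕ => (((2 ^ m - 1).choose n : ℕ) : C)) atTop (𝓝 ((-1) ^ n)) := by
  induction n with
  | zero => simp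
  | succ n ih =>
    have hn : (n + 1 : C) ≠ 0 := Nat.cast_add_one_ne_zero n
    have h2 := ((ih.mul (((tendsto_pow_atTop_nhds_zero_of_norm_lt_one h1).sub_const 1).sub_const
      (n : C))).div_const (n + 1))
    rw [show (-1 : C) ^ n * (0 - 1 - n) / (n + 1) = (-1) ^ (n + 1) by field_simp; ring] at h2
    refine h2.congr' ?_
    filter_upwards [(tendsto_pow_atTop_atTop_of_one_lt (one_lt_two (α := ℕ))).eventually_ge_atTop
      (n + 1)] with m hm
    rw [div_eq_iff hn]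
    have := congrArg (Nat.cast : ℕ → C) (Nat.choose_succ_right_eq (2 ^ m - 1) n)
    rw [Nat.cast_mul, Nat.cast_mul, Nat.cast_sub (by omega), Nat.cast_sub (by omega)] at this
    simpa using this.symm

omit [IsUltrametricDist C] in
theorem pow_sub_one {N : ℕ} (hN : N ≠ 0) (x : C) : ((x + 1) ^ N - 1) / (N : C) =
    ∑' n : ℕ, (((N - 1).choose n : ℕ) : C) * x ^ (n + 1) / (n + 1) := by
  obtain ⟨N, rfl⟩ := Nat.exists_eq_add_one_of_ne_zero hN
  rw [tsum_eq_sum (s := Finset.range (N + 1)) fun n hn => by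
    rw [Nat.choose_eq_zero_of_lt (by simpa using hn)]; simp, add_pow, Finset.sum_range_succ']
  simp only [pow_zero, one_pow, mul_one, Nat.choose_zero_right, Nat.cast_one, add_sub_cancel_right,
    Finset.sum_div, Nat.add_sub_cancel]
  refine Finset.sum_congr rfl fun n _ => ?_
  have := congrArg (Nat.cast : ℕ → C) (Nat.add_one_mul_choose_eq N n)
  have h1 : (n + 1 : C) ≠ 0 := Nat.cast_add_one_ne_zero n
  have h2 : (N + 1 : C) ≠ 0 := Nat.cast_add_one_ne_zero N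
  push_cast at this ⊢
  field_simp
  linear_combination -x ^ (n + 1) * this

omit [CharZero C] in
theorem bnd (h1 : ‖(2 : C)‖ < 1) (hu : ‖x‖ < 1) : ∃ b : ℕ → ℝ, Summable b ∧
    ∀ (c : C) (n : ℕ), ‖c‖ ≤ 1 → ‖c * x ^ (n + 1) / (n + 1)‖ ≤ b n := by
  obtain ⟨c, hc⟩ := inv_le h1
  have h0 : Summable fun n : ℕ => (n : ℝ) ^ c * ‖x‖ ^ n :=
    summable_pow_mul_geometric_of_norm_lt_one c (by rwa [norm_norm])
  refine ⟨_, (summable_nat_add_iff 1).2 h0, fun a n ha => ?_⟩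
  rw [norm_div, norm_mul, norm_pow, div_eq_mul_inv, mul_comm, ← Nat.cast_add_one]
  exact mul_le_mul (hc _ n.succ_ne_zero) (mul_le_of_le_one_left (by positivity) ha)
    (by positivity) (by positivity)

variable [CompleteSpace C]

theorem lim_ser (h1 : ‖(2 : C)‖ < 1) (hu : ‖x‖ < 1) :
    Tendsto (fun m : ℕ => ((x + 1) ^ 2 ^ m - 1) / 2 ^ m) atTop
      (𝓝 (∑' n : ℕ, (-1) ^ n * x ^ (n + 1) / (n + 1))) := by
  obtain ⟨b, hs, hb⟩ := bnd h1 hu
  have h2 := tendsto_tsum_of_dominated_convergence hs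
    (fun n => ((choose_lim h1 n).mul_const (x ^ (n + 1))).div_const (n + 1 : C))
    (Eventually.of_forall fun m n => hb _ n (IsUltrametricDist.norm_natCast_le_one C _))
  refine h2.congr fun m => ?_
  rw [← pow_sub_one (pow_ne_zero m two_ne_zero), Nat.cast_pow, Nat.cast_ofNat]

theorem lg_lim (h1 : ‖(2 : C)‖ < 1) (h : ‖x - 1‖ < 1) :
    Tendsto (fun a : ℕ => (x ^ 2 ^ a - 1) / 2 ^ a) atTop (𝓝 (lg x)) := by
  have := lim_ser h1 h
  rw [sub_add_cancel] at this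
  exact tendsto_nhds_limUnder ⟨_, this⟩

/-- **the series** -/
theorem lg_ser (h1 : ‖(2 : C)‖ < 1) (h : ‖x‖ < 1) :
    HasSum (fun k : ℕ => x ^ (k + 1) / (k + 1)) (-lg (1 - x)) := by
  have h' : ‖-x‖ < 1 := by rwa [norm_neg]
  obtain ⟨b, hs, hb⟩ := bnd h1 h
  have s : Summable fun k : ℕ => x ^ (k + 1) / (k + 1) :=
    .of_norm_bounded hs fun n => by simpa using hb 1 n (by simp)
  have e := tendsto_nhds_unique (lg_lim h1 (x := 1 - x) (by simpa using h))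
    (by simpa only [neg_add_eq_sub] using lim_ser h1 h')
  rw [e, ← tsum_neg, show (fun n : ℕ => -((-1) ^ n * (-x) ^ (n + 1) / (n + 1 : C))) =
    fun k : ℕ => x ^ (k + 1) / (k + 1) from funext fun n => by
      rw [neg_pow x, pow_succ (-1 : C), ← mul_assoc, ← mul_assoc, ← mul_pow]; simp [neg_div]]
  exact s.hasSum

theorem lg_mul (h1 : ‖(2 : C)‖ < 1) (h : ‖x - 1‖ < 1) (k : ‖y - 1‖ < 1) :
    lg (x * y) = lg x + lg y := by
  have e := ((lg_lim h1 h).mul (lg_lim h1 k)).mul (tendsto_pow_atTop_nhds_zero_of_norm_lt_one h1)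
  refine tendsto_nhds_unique (lg_lim h1 (lt_mul h k)) ?_
  rw [← add_zero (lg x + lg y), ← mul_zero (lg x * lg y)]
  exact (((lg_lim h1 h).add (lg_lim h1 k)).add e).congr fun a => by
    rw [mul_pow]; field_simp; ring

omit [IsUltrametricDist C] [CharZero C] [CompleteSpace C] in
theorem lg_root {n : ℕ} (h : x ^ 2 ^ n = 1) : lg x = 0 :=
  Tendsto.limUnder_eq (tendsto_const_nhds.congr' (by
    filter_upwards [eventually_ge_atTop n] with a ha
    obtain ⟨k, rfl⟩ := Nat.exists_eq_add_of_le ha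
    rw [pow_add, pow_mul, h, one_pow, sub_self, zero_div]))

omit [IsUltrametricDist C] [CharZero C] [CompleteSpace C] in
theorem lg_one : lg (1 : C) = 0 := lg_root (n := 0) (by simp)

theorem lg_prod {ι : Type} (h1 : ‖(2 : C)‖ < 1) (s : Finset ι) {f : ι → C}
    (h : ∀ i ∈ s, ‖f i - 1‖ < 1) :
    ‖∏ i ∈ s, f i - 1‖ < 1 ∧ lg (∏ i ∈ s, f i) = ∑ i ∈ s, lg (f i) := by
  induction s using Finset.cons_induction with
  | empty => simp [lg_one]
  | cons a s ha ih =>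
    have k := ih fun i hi => h i (Finset.mem_cons_of_mem hi)
    have e := h a (Finset.mem_cons_self _ _)
    rw [Finset.prod_cons, Finset.sum_cons, lg_mul h1 e k.1, k.2]
    exact ⟨lt_mul e k.1, rfl⟩

theorem lg_npow (h1 : ‖(2 : C)‖ < 1) (h : ‖x - 1‖ < 1) (n : ℕ) :
    ‖x ^ n - 1‖ < 1 ∧ lg (x ^ n) = n * lg x := by
  simpa using lg_prod h1 (Finset.range n) (f := fun _ => x) fun _ _ => h

/-- continuous embeddings commute with the logarithm -/
theorem lg_map {C' : Type} [NormedField C'] (f : C →+* C') (hf : Continuous f)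
    (h1 : ‖(2 : C)‖ < 1) (h : ‖x - 1‖ < 1) : lg (f x) = f (lg x) :=
  Tendsto.limUnder_eq (((hf.tendsto _).comp (lg_lim h1 h)).congr fun a => by
    simp [map_ofNat])

omit [CompleteSpace C] [CharZero C] in
theorem lg_pow (h2 : ‖(2 : C)‖ = 1 / 2) (h : ‖x - 1‖ ≤ 1 / 4) (a : ℕ) :
    ‖x ^ 2 ^ a - 1‖ ≤ ‖x - 1‖ * (1 / 2) ^ a := by
  induction a with
  | zero => simp
  | succ a ih =>
    have k : ‖x ^ 2 ^ a - 1‖ ≤ 1 / 2 := ih.trans (by
      nlinarith [pow_le_one₀ (n := a) (by norm_num : (0 : ℝ) ≤ 1 / 2) (by norm_num),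
        norm_nonneg (x - 1), pow_pos (by norm_num : (0 : ℝ) < 1 / 2) a])
    rw [show x ^ 2 ^ (a + 1) - 1 = (x ^ 2 ^ a - 1) * (2 + (x ^ 2 ^ a - 1)) by
      rw [pow_succ, pow_mul]; ring, norm_mul, pow_succ, ← mul_assoc]
    exact mul_le_mul ih (nrm_add h2.le k) (norm_nonneg _) (by positivity)

theorem lg_near (h2 : ‖(2 : C)‖ = 1 / 2) (h : ‖x - 1‖ ≤ 1 / 4) :
    ‖lg x - (x - 1)‖ ≤ 2 * ‖x - 1‖ ^ 2 := by
  refine le_of_tendsto' ((lg_lim (by rw [h2]; norm_num) (h.trans_lt (by norm_num))).sub_const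
    _).norm fun a => ?_
  induction a with
  | zero => simp
  | succ a ih =>
    rw [← sub_add_sub_cancel _ ((x ^ 2 ^ a - 1) / 2 ^ a)]
    refine nrm_add ?_ ih
    rw [show (x ^ 2 ^ (a + 1) - 1) / 2 ^ (a + 1) - (x ^ 2 ^ a - 1) / 2 ^ a =
      (x ^ 2 ^ a - 1) * (x ^ 2 ^ a - 1) / 2 ^ a / 2 by
        rw [pow_succ, pow_mul]; field_simp; ring, norm_div, h2, norm_div, norm_mul, norm_pow, h2,
        div_le_iff₀ (by norm_num), div_le_iff₀ (by positivity)]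
    refine (mul_le_mul (lg_pow h2 h a) (lg_pow h2 h a) (norm_nonneg _) (by positivity)).trans ?_
    have : (1 / 2 : ℝ) ^ a ≤ 1 := pow_le_one₀ (by norm_num) (by norm_num)
    have p : (0 : ℝ) ≤ ‖x - 1‖ ^ 2 * (1 / 2) ^ a := by positivity
    nlinarith [mul_le_of_le_one_right p this]

theorem lg_le (h2 : ‖(2 : C)‖ = 1 / 2) (h : ‖x - 1‖ ≤ 1 / 4) : ‖lg x‖ ≤ ‖x - 1‖ := by
  rw [← sub_add_cancel (lg x) (x - 1)]
  exact nrm_add ((lg_near h2 h).trans (by nlinarith [norm_nonneg (x - 1)])) le_rfl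

theorem two_K : ‖(2 : ℚ_[2])‖ = 1 / 2 := by simpa using Padic.norm_p (p := 2)

theorem nrm_am (x : ℚ_[2]) : ‖algebraMap ℚ_[2] ℂ_[2] x‖ = ‖x‖ := norm_algebraMap' ℂ_[2] x

theorem two_C : ‖(2 : ℂ_[2])‖ = 1 / 2 := by rw [← two_K, ← nrm_am, map_ofNat]

theorem two_lt : ‖(2 : ℂ_[2])‖ < 1 := by rw [two_C]; norm_num

end Vale.Agent.P014T.Ah
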