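import Vale.Agent.P014T.Ah.Fc
import Vale.Agent.P014T.Sy.Val
import Vale.Agent.P014T.Iv.Two
import Vale.Agent.P014T.Sb.Lg

/-!
# P014T, block AH: the value of the symbol on a root of unity (Artin and Hasse)
-/

set_option linter.all false

noncomputable section

namespace Vale.Agent.P014T.Ah

open NumberField Filter Topology
open Vale.Agent.P022 Vale.Agent.P022K
open Vale.Agent.P022D.W (dec)
open Vale.Agent.P022E.GW (Ov)
open Vale.Agent.P004S.Ga (K O mem_O)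
open Vale.Agent.P004S.Aq Vale.Agent.P004F.Rc Vale.Agent.P014T.Sy Vale.Agent.P014T.Iv

variable {x y t s : K} {n : ℕ}

theorem lo_Lg : Lo Lg := by
  refine ⟨fun _ _ => Lg_mul, fun x h => O_of (O_mul (O_pow 2) (Lg_four h)) (by
    rw [← mul_assoc, hn_mul, one_mul]), fun n x h k => ?_, lam_cont⟩
  obtain ⟨c, c1, c2⟩ := (Un.lim h).2
  refine O_of (O_mul (O_pw k 2) (add_mem O_one (O_mul (O_mul O_two c1)
    (O_pw (add_mem h O_one) 2)))) ?_
  rw [c2, hn_two]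
  ring

theorem un_iff : Un x ↔ ‖x‖ = 1 := by
  refine ⟨fun h => ?_, fun h => (hf_cases (x := 2⁻¹ * x) (O_of (mem_O.2 h.le) (by ring))).elim
    (fun e => ?_) fun e => O_of e (by ring)⟩
  · obtain ⟨y, y1, e⟩ := h.inv
    have := congrArg norm e
    rw [norm_mul, norm_one] at this
    exact le_antisymm h.mem (by nlinarith [mem_O.1 y1, norm_nonneg x])
  · rw [mem_O, norm_mul, h, norm_inv, two_K] at e
    norm_num at e

theorem Un_lt (h : Un x) : ‖x - 1‖ < 1 := by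
  have := mem_O.1 h
  rw [norm_mul, norm_inv, two_K] at this
  linarith

theorem un_lt : Un x ↔ ‖x - 1‖ < 1 := ⟨Un_lt, fun h => un_iff.2 (nrm_one h)⟩

theorem two_lt' : ‖(2 : K)‖ < 1 := by rw [two_K]; norm_num

theorem Lg_eq (h : Un x) : Lg x = lg x :=
  tendsto_nhds_unique h.lim.1 (((lg_lim two_lt' (Un_lt h)).comp (tendsto_add_atTop_nat 1)).congr
    fun m => by simp only [Function.comp, aa, hn, div_eq_inv_mul])

/-- the unit part -/
def up (t : K) : K := t * 2 ^ (-t.valuation)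

theorem un_up (h : t ≠ 0) : Un (up t) := by
  rw [un_iff, up, norm_mul, Padic.norm_eq_zpow_neg_valuation h, norm_zpow, two_K, one_div, inv_zpow',
    neg_neg, Nat.cast_ofNat, ← zpow_add₀ two_ne_zero, neg_add_cancel, zpow_zero]

theorem up_eq {v : ℤ} (h : Un x) (e : t = 2 ^ v * x) : up t = x := by
  have x0 : x ≠ 0 := norm_ne_zero_iff.1 (by rw [un_iff.1 h]; exact one_ne_zero)
  have t0 : t ≠ 0 := e ▸ mul_ne_zero (zpow_ne_zero _ two_ne_zero) x0
  have := un_iff.1 (un_up t0)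
  rw [up] at this ⊢
  generalize t.valuation = w at this ⊢
  rw [e, mul_right_comm, ← zpow_add₀ two_ne_zero] at this ⊢
  rw [norm_mul, un_iff.1 h, mul_one, norm_zpow, two_K,
    zpow_eq_one_iff_right₀ (by norm_num) (by norm_num)] at this
  rw [this, zpow_zero, one_mul]

theorem eq_up (t : K) : t = 2 ^ t.valuation * up t := by
  rw [up, mul_left_comm, ← zpow_add₀ two_ne_zero, add_neg_cancel, zpow_zero, mul_one]

/-- the logarithm of Iwasawa -/
def Lk (t : K) : K := Lg (up t)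

theorem Lk_eq {v : ℤ} (h : Un x) (e : t = 2 ^ v * x) : Lk t = Lg x := by rw [Lk, up_eq h e]

theorem Lk_un (h : Un x) : Lk x = Lg x := Lk_eq (v := 0) h (by simp)

theorem Lk_mul (h : x ≠ 0) (k : y ≠ 0) : Lk (x * y) = Lk x + Lk y := by
  rw [Lk_eq (v := x.valuation + y.valuation) ((un_up h).mul (un_up k)) (by
    rw [zpow_add₀ two_ne_zero, mul_mul_mul_comm, ← eq_up, ← eq_up]), Lg_mul (un_up h) (un_up k),
    Lk, Lk]

theorem Lk_sq (h : Un x) (v : ℤ) (e : x ^ 2 = 1) : Lk (2 ^ v * x) = 0 := by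
  rw [Lk_eq h rfl, (Lg_zero h).2 e]

theorem Lk_zpow (v : ℤ) : Lk (2 ^ v) = 0 := by
  simpa using Lk_sq (x := 1) (un_iff.2 norm_one) v (one_pow _)

theorem Lk_one : Lk 1 = 0 := by simpa using Lk_zpow 0

theorem Lk_two : Lk 2 = 0 := by simpa using Lk_zpow 1

theorem Lk_neg_one : Lk (-1) = 0 := by
  simpa using Lk_sq (x := -1) (un_iff.2 (by simp)) 0 (by simp)

theorem Lk_four (h : t ≠ 0) : hn 2 * Lk t ∈ O := Lg_four (un_up h)

theorem Lk_lg (h : ‖t - 1‖ < 1) : Lk t = lg t := by rw [Lk_un (un_lt.2 h), Lg_eq (un_lt.2 h)]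

theorem am_Lk (h : ‖am t - 1‖ < 1) : am (Lk t) = lg (am t) := by
  rw [← map_one am, ← map_sub, nrm_am] at h
  rw [Lk_lg h, lg_map am (continuous_algebraMap _ _) two_lt' h]

/-- the general form: `2 ^ v` times an element of the disc -/
theorem am_Lk' {v : ℤ} {w : ℂ_[2]} (h : ‖w - 1‖ < 1) (e : am t = 2 ^ v * w) : am (Lk t) = lg w := by
  have k : am (2 ^ (-v) * t) = w := by
    rw [map_mul, e, map_zpow₀, map_ofNat, ← mul_assoc, ← zpow_add₀ two_ne_zero, neg_add_cancel,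
      zpow_zero, one_mul]
  have t0 : t ≠ 0 := fun c => by
    rw [← k, c] at h
    simp at h
  rw [← k, ← am_Lk (k ▸ h), Lk_mul (zpow_ne_zero _ two_ne_zero) t0, Lk_zpow, zero_add]

theorem lgs_eq {w : ℂ_[2]} (h : ‖w - 1‖ < 1) : Sb.lgs w = lg w :=
  tendsto_nhds_unique (Sb.lgs_lim two_C (by rwa [norm_sub_rev])) (lg_lim two_lt h)

/-- comparison with the logarithm of block SB -/
theorem am_Lk_sb (h : t ≠ 0) : Sb.Gd (am t) ∧ am (Lk t) = Sb.Lg (am t) := by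
  have k : ‖am (up t) - 1‖ < 1 := by
    rw [← map_one am, ← map_sub, nrm_am]
    exact Un_lt (un_up h)
  have e : am t = 2 ^ t.valuation * am (up t) := by
    conv_lhs => rw [eq_up t, map_mul, map_zpow₀, map_ofNat]
  have e' : am t ^ 1 / 2 ^ t.valuation = am (up t) := by
    rw [pow_one, e, mul_div_cancel_left₀ _ (zpow_ne_zero _ two_ne_zero)]
  have k' : ‖1 - am t ^ 1 / 2 ^ t.valuation‖ < 1 := by rwa [e', norm_sub_rev]
  have := Sb.Lg_spec two_C one_pos k'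
  rw [e', lgs_eq k, Nat.cast_one, one_mul] at this
  exact ⟨⟨(1, _), one_pos, k'⟩, by rw [this, am_Lk' k e]⟩

variable {ι : Qb →+* ℂ_[2]} {P : Ideal (𝓞 Qb)}

theorem iv_two (o : Ov 2 P) (ht : 2 ^ n * (4 * s) ∈ O) {k : ℕ} {β : Qb} (hβ : β ^ 2 ^ n = 2 ^ k) :
    iv P (cp n (fun g => s * lam g) β) = 0 := by
  have e : β ^ 2 ^ n = ((2 ^ k : ℕ) : ℤ) := by rw [hβ]; simp
  have u := u2_lam ht
  simpa using Iv.rec (cp_z2 (rt_int e (by positivity)) u.ad u.lv) {2} (fun _ => P)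
    (by simpa using o) (fun p hp m => (GW.Pl.ex_ov hp).imp fun Q q => ⟨q, cp_unr q
      (by simpa using m) e (fun d => m (Finset.mem_singleton.2 ((Nat.prime_dvd_prime_iff_eq hp
        Nat.prime_two).1 (hp.dvd_of_dvd_pow (Int.natCast_dvd_natCast.1 d)))))
      (u.loc q (by simpa using m))⟩) ⟨.mk em, cp_inf e (by positivity) _⟩

theorem iv_rat (o : Ov 2 P) (ht : 2 ^ n * (4 * s) ∈ O) {v a : ℤ} (ha : Odd a) {β : Qb}
    (hβ : β ^ 2 ^ n = 2 ^ v * a) : iv P (cp n (fun g => s * lam g) β) = -mq (s * Lg a) := by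
  have a0 : a ≠ 0 := fun e => by simp [e] at ha
  obtain ⟨b, hb⟩ := ex_rt n (2 ^ v.toNat)
  obtain ⟨c, hc⟩ := ex_rt n (2 ^ (-v).toNat)
  obtain ⟨d, hd⟩ := ex_rt n a
  have r : ∀ {b : Qb} {k : ℕ}, b ^ 2 ^ n = 2 ^ k → Rt (dec P) n b := fun e =>
    rt_of e (pow_ne_zero _ two_ne_zero) fun g _ => by rw [map_pow, map_ofNat]
  have e1 := iv_mul o (r hb) (rt_int hd a0) (lam_ad _ s) (lam_lv _ ht) (mul_pow _ _ _)
  rw [iv_mul o (rt_of hβ (mul_ne_zero (zpow_ne_zero _ two_ne_zero) (Int.cast_ne_zero.2 a0))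
    fun g _ => by rw [map_mul, map_zpow₀, map_ofNat, map_intCast]) (r hc) (lam_ad _ s) (lam_lv _ ht)
    (by rw [mul_pow, hb, hd, hβ, hc, mul_right_comm, ← zpow_natCast, ← zpow_natCast,
      ← zpow_add₀ two_ne_zero]; congr 2; omega), iv_two o ht hb, iv_two o ht hc, iv_lam o ht ha hd,
    add_zero, zero_add] at e1
  exact e1

theorem ex_apx (n : ℕ) (h : Un x) : ∃ (a : ℤ) (w : K), Odd a ∧ w ≠ 0 ∧ x = a * w ^ 2 ^ n ∧
    hn (n + 2) * (Lg x - Lg a) ∈ O := by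
  obtain ⟨m, hm⟩ := apx (n + 2) h.mem
  have k : 2⁻¹ * (2 ^ (n + 2) * hn (n + 2)) = (2⁻¹ : K) := by rw [hn_mul, mul_one]
  have u : Un m := O_of (sub_mem h (O_mul (O_pow (n + 1)) hm)) (by
    linear_combination (x - m) * k)
  obtain ⟨y, y1, e⟩ := u.inv
  have z : hn (n + 2) * (x * y - 1) ∈ O := O_of (O_mul hm y1) (by
    linear_combination hn (n + 2) * e)
  have uz : Un (x * y) := O_of (O_mul (O_pow (n + 1)) z) (by linear_combination (1 - x * y) * k)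
  obtain ⟨w, hw, -⟩ := pw_root n (z := x * y) (by
    have := mem_O.1 z
    rw [norm_mul, hn, norm_inv, norm_pow, two_K, one_div, inv_pow, inv_inv, pow_add] at this
    linarith)
  have ex : x = m * (x * y) := by linear_combination (-x) * e
  refine ⟨m, w, ?_, fun c => ?_, by rw [hw, Int.cast_natCast, ← ex], ?_⟩
  · obtain ⟨c, hc⟩ := (int_iff 1 (m - 1)).1 (by simpa [hn_one, Un] using u)
    exact ⟨c, by omega⟩
  · have := un_iff.1 uz
    rw [← hw, c] at this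
    simp at this
  · obtain ⟨r, r1, r2⟩ := Lg_unit uz
    rw [Int.cast_natCast, ex, Lg_mul u uz, add_sub_cancel_left, r2]
    exact O_of (O_mul (O_mul z (add_mem uz O_one)) r1.mem) (by ring)

/-- **the value of the invariant** -/
theorem Ind.val (h : Ind ι P) (hs : 2 ^ n * (4 * s) ∈ O) (t0 : t ≠ 0) {β : ℂ_[2]}
    (hβ : β ^ 2 ^ n = am t) {κ : GQ → K} (hκ : ∀ g ∈ dec P, h.ro g β = ι (ex (κ g)) * β) :
    iv P (fun g j => s * lam g * (cy g * (2 ^ n * κ j))) = -mq (s * Lk t) := by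
  obtain ⟨a, w, ha, w0, e, k⟩ := ex_apx n (un_up t0)
  have w1 : am w ≠ 0 := (map_ne_zero am).2 w0
  obtain ⟨γ, g1, g2⟩ := ex_root ι (x := β / am w) (a := 2 ^ t.valuation * a) (Nat.two_pow_pos n) (by
    rw [div_pow, hβ, div_eq_iff (pow_ne_zero _ w1)]
    conv_lhs => rw [eq_up t, e]
    simp [map_ofNat, mul_assoc])
  have r : Rt (dec P) n γ := rt_of g2 (mul_ne_zero (zpow_ne_zero _ two_ne_zero)
    (Int.cast_ne_zero.2 fun e => by simp [e] at ha))
    fun g _ => by rw [map_mul, map_zpow₀, map_ofNat, map_intCast]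
  rw [← iv_congr h.ov (z := cp n (fun g => s * lam g) γ) fun g hg j hj => O_of
    (O_cp (lam_lv _ hs g hg) g (r.eq hj (x := κ j) (ι.injective (by
      rw [← h.ro_emb hj, map_mul, g1, map_div₀, hκ j hj, h.ro_am, mul_div_assoc]))))
      (by simp only [cp]; ring), iv_rat h.ov hs ha g2, neg_inj, mq_eq]
  refine O_of (neg_mem (O_mul hs k)) ?_
  rw [Lk]
  linear_combination (s * (Lg (up t) - Lg a)) * hn_mul (n + 2)

/-- the same for algebraic numbers -/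
theorem Ind.val' (h : Ind ι P) (hs : 2 ^ n * (4 * s) ∈ O) {a β : Qb} (k : Fx P a) (a0 : a ≠ 0)
    (hβ : β ^ 2 ^ n = a) : iv P (cp n (fun g => s * lam g) β) = -mq (s * Lk (Ah.vl ι a)) :=
  h.val hs (h.vl_ne k a0) (β := ι β) (by rw [← map_pow, hβ, h.vl k]) fun g hg => by
    rw [h.ro_emb hg, ← map_mul, ← (rt_of hβ a0 k).act hg]

variable {X : Type} {α : GQ → X → X} {S : Finset X} {τ ε : X → K} {u : X → ℂ_[2]}

theorem Ind.ex_prod (h : Ind ι P) (d : Ds (dec P) α S) (hu : u ∈ h.fd.G α S) :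
    ∃ t, t ≠ 0 ∧ ∏ x ∈ S, u x = am t := by
  obtain ⟨t, e⟩ := h.ro_fx (x := ∏ x ∈ S, u x) (prod_mem fun x hx => (hu x hx).2.1) fun g hg => by
    rw [map_prod, ← d.prod hg u]
    exact Finset.prod_congr rfl fun x hx => (hu x hx).2.2 g hg
  exact ⟨t, fun c => Finset.prod_ne_zero_iff.2 (fun x hx => (hu x hx).1) (by
    rw [← e, c, map_zero]), e.symm⟩

/-- **row S3** -/
theorem Ind.s3 (h : Ind ι P) (d : Ds (dec P) α S) (w : Tw (dec P) α S n τ) (hu : u ∈ h.fd.G α S)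
    (m : ∀ x ∈ S, 2⁻¹ * (ε x - 1) ∈ O) (e : ∀ x ∈ S, hn n * (ε x * τ x - 1) ∈ O)
    (ht : ∏ x ∈ S, u x = am t) :
    2 • h.fd.sym α S n τ (h.fd.ze n ε) u = -mq (2 * hn (n + n) * Lk t) := by
  obtain ⟨t', t0, e'⟩ := h.ex_prod d hu
  obtain rfl : t = t' := am.injective (ht.symm.trans e')
  obtain ⟨κ, β, b1, b2, b3⟩ := Fd.ex_ku (F := h.fd) (ds_pt _) (a := fun _ => am t) (fun _ _ =>
    ⟨(map_ne_zero am).2 t0, am_AA t, fun g _ => h.ro_am g t⟩) (n + n)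
  have p := Finset.mem_singleton_self ()
  rw [Fd.zeta (F := h.fd) lo_Lg d w hu m e ((b1 () p).trans ht.symm) (b2 () p)
    fun g hg => b3 g hg () p]
  exact h.val (O_of (O_pow 3) (by linear_combination 8 * hn_mul (n + n))) t0 (b1 () p)
    fun g hg => b3 g hg () p

/-- row S3 with the root of unity on the right -/
theorem Ind.s3' (h : Ind ι P) (d : Ds (dec P) α S) (w : Tw (dec P) α S n τ) (hu : u ∈ h.fd.G α S)
    (m : ∀ x ∈ S, 2⁻¹ * (ε x - 1) ∈ O) (e : ∀ x ∈ S, hn n * (ε x * τ x - 1) ∈ O)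
    (ht : ∏ x ∈ S, u x = am t) :
    2 • h.fd.sym α S n τ u (h.fd.ze n ε) = mq (2 * hn (n + n) * Lk t) := by
  rw [Fd.anti (F := h.fd) d w hu (Fd.ze_mem (Fd.tw_eps (F := h.fd) d w (fun x hx =>
    Un.mem (m x hx)) e)), neg_nsmul, h.s3 d w hu m e ht, neg_neg]

/-- row S3 in the words of block SB -/
theorem Ind.s3_sb (h : Ind ι P) (d : Ds (dec P) α S) (w : Tw (dec P) α S n τ)
    (hu : u ∈ h.fd.G α S) (m : ∀ x ∈ S, 2⁻¹ * (ε x - 1) ∈ O)
    (e : ∀ x ∈ S, hn n * (ε x * τ x - 1) ∈ O) : Sb.Gd (∏ x ∈ S, u x) ∧ ∃ θ : K,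
      am θ = Sb.Lg (∏ x ∈ S, u x) ∧
        2 • h.fd.sym α S n τ u (h.fd.ze n ε) = mq (2 * hn (n + n) * θ) := by
  obtain ⟨t, t0, ht⟩ := h.ex_prod d hu
  rw [ht]
  exact ⟨(am_Lk_sb t0).1, _, (am_Lk_sb t0).2, h.s3' d w hu m e ht⟩

end Vale.Agent.P014T.Ah
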