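import Vale.Agent.P014T.Ah.Log
import Vale.Agent.P014T.Sy.Ex
import Vale.Agent.P022D.Loc2.Dec
import Vale.Agent.P022E.GW.TauG

/-!
# P014T, block AH: the decomposition field at two inside the two-adic numbers
-/

set_option linter.all false

noncomputable section

namespace Vale.Agent.P014T.Ah

open NumberField Polynomial
open Vale.Agent.P022 (Qb GQ)
open Vale.Agent.P022D.W (dec)
open Vale.Agent.P022D.Loc2
open Vale.Agent.P022E.GW (Ov)
open Vale.Agent.P004S.Ga (K O mem_O)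
open scoped Pointwise

/-- the embedding induces the prime -/
def Ind (ι : Qb →+* ℂ_[2]) (P : Ideal (𝓞 Qb)) : Prop := ∀ x : 𝓞 Qb, x ∈ P ↔ ‖ι x‖ < 1

/-- the inclusion of the two-adic numbers -/
abbrev am : K →+* ℂ_[2] := algebraMap K ℂ_[2]

/-- fixed by the decomposition group -/
def Fx (P : Ideal (𝓞 Qb)) (a : Qb) : Prop := ∀ g ∈ dec P, g a = a

/-- the basic embedding -/
def i0 : Qb →+* ℂ_[2] := (algebraMap (PadicAlgCl 2) ℂ_[2]).comp (io 2).toRingHom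

theorem i0_nrm (x : Qb) : ‖i0 x‖ = ‖io 2 x‖ := PadicComplex.norm_extends 2 _

theorem ex_s (ι : Qb →+* ℂ_[2]) : ∃ s : GQ, ∀ x, i0 (s x) = ι x := by
  have := galQ
  let _ : Algebra Qb ℂ_[2] := i0.toAlgebra
  have := IsScalarTower.of_algebraMap_eq (R := ℚ) (S := Qb) (A := ℂ_[2])
    fun x => (i0.toRatAlgHom.commutes x).symm
  exact ⟨ι.toRatAlgHom.restrictNormal' Qb, fun x => ι.toRatAlgHom.restrictNormal_commutes Qb x⟩

variable {ι : Qb →+* ℂ_[2]} {P : Ideal (𝓞 Qb)} {a b : Qb} {g : GQ}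

theorem nrm_int (ι : Qb →+* ℂ_[2]) (x : 𝓞 Qb) : ‖ι x‖ ≤ 1 := by
  obtain ⟨s, hs⟩ := ex_s ι
  rw [← hs, i0_nrm]
  exact norm_int 2 (s • x)

theorem ex_ind (o : Ov 2 P) : ∃ ι, Ind ι P := by
  obtain ⟨t, rfl⟩ := P022E.GW.Tg.trans (⟨Nat.prime_two, PP_prime 2, p_mem_PP 2⟩ : Ov 2 (PP 2)) o
  refine ⟨i0.comp (t⁻¹ : GQ).toRingEquiv.toRingHom, fun x => ?_⟩
  rw [Ideal.mem_pointwise_smul_iff_inv_smul_mem, mem_PP, ← i0_nrm]
  rfl

theorem Ind.pp (h : Ind ι P) {s : GQ} (hs : ∀ x, i0 (s x) = ι x) (x : 𝓞 Qb) :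
    x ∈ P ↔ s • x ∈ PP 2 := by
  rw [h, mem_PP, ← i0_nrm, ← hs]
  rfl

theorem Ind.ov (h : Ind ι P) : Ov 2 P := by
  obtain ⟨s, hs⟩ := ex_s ι
  refine ⟨Nat.prime_two, ⟨fun e => ?_, fun {x y} e => ?_⟩, ?_⟩
  · have := (h 1).1 (e ▸ Submodule.mem_top)
    simp at this
  · rw [h.pp hs, smul_mul'] at e
    rw [h.pp hs, h.pp hs]
    exact (PP_prime 2).mem_or_mem e
  · rw [h, show (((2 : ℕ) : 𝓞 Qb) : Qb) = 2 by simp; rfl, map_ofNat]
    exact two_lt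

theorem Ind.dec_jj (h : Ind ι P) {s : GQ} (hs : ∀ x, i0 (s x) = ι x) :
    g ∈ dec P ↔ ∃ σ, jj 2 σ = s * g * s⁻¹ := by
  rw [← range_jj]
  refine ⟨fun k x => ?_, fun k x => ?_⟩
  · rw [mul_smul, mul_smul, ← h.pp hs, k, h.pp hs, smul_inv_smul]
  · rw [h.pp hs, h.pp hs, ← k (s • x), mul_smul, mul_smul, inv_smul_smul]

/-- **the decomposition field** -/
theorem Ind.fx (h : Ind ι P) : Fx P a ↔ ∃ x, am x = ι a := by
  obtain ⟨s, hs⟩ := ex_s ι
  refine ⟨fun k => ?_, fun ⟨x, e⟩ g hg => ?_⟩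
  · obtain ⟨x, e⟩ := (InfiniteGalois.mem_range_algebraMap_iff_fixed (k := ℚ_[2])
      (io 2 (s a))).2 fun σ => by
        have := k (s⁻¹ * jj 2 σ * s) ((h.dec_jj hs).2 ⟨σ, by group⟩)
        rw [AlgEquiv.mul_apply, AlgEquiv.mul_apply] at this
        rw [← io_jj]
        conv_rhs => rw [← this, ← AlgEquiv.mul_apply, mul_inv_cancel, AlgEquiv.one_apply]
    exact ⟨x, by rw [← hs]; exact congrArg (algebraMap (PadicAlgCl 2) ℂ_[2]) e⟩
  · have := fix 2 _ ((range_jj 2 _).2 ((h.dec_jj hs).1 hg)) (s a) x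
      ((algebraMap (PadicAlgCl 2) ℂ_[2]).injective (e.trans (hs a).symm))
    rw [AlgEquiv.mul_apply, AlgEquiv.mul_apply, ← AlgEquiv.mul_apply s⁻¹, inv_mul_cancel,
      AlgEquiv.one_apply] at this
    exact s.injective this

/-- elements of the decomposition group extend to isometries -/
theorem Ind.ext (h : Ind ι P) (hg : g ∈ dec P) : ∃ σ : ℂ_[2] →+* ℂ_[2], Isometry σ ∧
    (∀ x, σ (ι x) = ι (g x)) ∧ ∀ x, σ (am x) = am x := by
  obtain ⟨s, hs⟩ := ex_s ι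
  obtain ⟨σ, e⟩ := (h.dec_jj hs).1 hg
  have i : Isometry σ.toRingEquiv.toRingHom := AddMonoidHomClass.isometry_of_norm _ fun x =>
    (spectralNorm_eq_of_equiv σ x).symm
  have c : ∀ x : PadicAlgCl 2, UniformSpace.Completion.mapRingHom _ i.continuous (x : ℂ_[2]) =
      (σ x : PadicAlgCl 2) := fun x => UniformSpace.Completion.map_coe i.uniformContinuous x
  refine ⟨UniformSpace.Completion.mapRingHom _ i.continuous, i.completion_map, fun x => ?_,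
    fun x => ?_⟩
  · rw [← hs, ← hs]
    refine (c _).trans (congrArg _ ?_)
    refine (io_jj 2 σ _).symm.trans (congrArg _ ?_)
    rw [e, AlgEquiv.mul_apply, AlgEquiv.mul_apply, ← AlgEquiv.mul_apply s⁻¹, inv_mul_cancel,
      AlgEquiv.one_apply]
  · exact (c _).trans (congrArg _ (σ.commutes x))

theorem Ind.nrm (h : Ind ι P) (hg : g ∈ dec P) (x : Qb) : ‖ι (g x)‖ = ‖ι x‖ := by
  obtain ⟨σ, i, e, -⟩ := h.ext hg
  rw [← e, i.norm_map_of_map_zero (map_zero σ)]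

theorem Ind.dec_iff (h : Ind ι P) : g ∈ dec P ↔ ∀ x, ‖ι (g x)‖ = ‖ι x‖ :=
  ⟨h.nrm, fun k x => by rw [h, h, ← k x]; rfl⟩

theorem Fx.mul (h : Fx P a) (k : Fx P b) : Fx P (a * b) := fun g hg => by
  rw [map_mul, h g hg, k g hg]

theorem Fx.add (h : Fx P a) (k : Fx P b) : Fx P (a + b) := fun g hg => by
  rw [map_add, h g hg, k g hg]

theorem Fx.sub (h : Fx P a) (k : Fx P b) : Fx P (a - b) := fun g hg => by
  rw [map_sub, h g hg, k g hg]

theorem Fx.inv (h : Fx P a) : Fx P a⁻¹ := fun g hg => by rw [map_inv₀, h g hg]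

theorem Fx.pow (h : Fx P a) (n : ℕ) : Fx P (a ^ n) := fun g hg => by rw [map_pow, h g hg]

theorem Fx.zpow (h : Fx P a) (n : ℤ) : Fx P (a ^ n) := fun g hg => by rw [map_zpow₀, h g hg]

theorem fx_rat (q : ℚ) : Fx P q := fun g _ => map_ratCast g q

theorem fx_int (q : ℤ) : Fx P q := fun g _ => map_intCast g q

theorem fx_nat (q : ℕ) : Fx P q := fun g _ => map_natCast g q

open Classical in
/-- the two-adic value -/
def vl (ι : Qb →+* ℂ_[2]) (a : Qb) : K := if h : ∃ x, am x = ι a then h.choose else 0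

theorem vl_eq {x : K} (e : am x = ι a) : vl ι a = x := by
  have : ∃ x, am x = ι a := ⟨x, e⟩
  rw [vl, dif_pos this]
  exact am.injective (this.choose_spec.trans e.symm)

theorem Ind.vl (h : Ind ι P) (k : Fx P a) : am (vl ι a) = ι a :=
  let ⟨_, e⟩ := h.fx.1 k
  by rw [vl_eq e, e]

theorem Ind.vl_nrm (h : Ind ι P) (k : Fx P a) : ‖Ah.vl ι a‖ = ‖ι a‖ := by rw [← h.vl k, nrm_am]

theorem Ind.vl_mul (h : Ind ι P) (k : Fx P a) (k' : Fx P b) :
    Ah.vl ι (a * b) = Ah.vl ι a * Ah.vl ι b := vl_eq (by rw [map_mul, map_mul, h.vl k, h.vl k'])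

theorem Ind.vl_add (h : Ind ι P) (k : Fx P a) (k' : Fx P b) :
    Ah.vl ι (a + b) = Ah.vl ι a + Ah.vl ι b := vl_eq (by rw [map_add, map_add, h.vl k, h.vl k'])

theorem Ind.vl_ne (h : Ind ι P) (k : Fx P a) (h0 : a ≠ 0) : Ah.vl ι a ≠ 0 := fun e =>
  (map_ne_zero ι).2 h0 (by rw [← h.vl k, e, map_zero])

theorem vl_rat (q : ℚ) : vl ι q = q := vl_eq (by rw [map_ratCast, map_ratCast])

theorem vl_int (q : ℤ) : vl ι q = q := vl_eq (by rw [map_intCast, map_intCast])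

theorem vl_nat (q : ℕ) : vl ι q = q := vl_eq (by rw [map_natCast, map_natCast])

/-- roots of algebraic numbers are algebraic -/
theorem ex_root (ι : Qb →+* ℂ_[2]) {x : ℂ_[2]} {m : ℕ} (hm : 0 < m) (e : x ^ m = ι a) :
    ∃ y, ι y = x ∧ y ^ m = a := by
  obtain ⟨y, hy⟩ := (IsAlgClosed.splits (X ^ m - C a : Qb[X])).mem_range_of_isRoot (i := ι)
    (X_pow_sub_C_ne_zero hm a) (x := x) (by simp [e])
  exact ⟨y, hy, ι.injective (by rw [map_pow, hy, e])⟩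

/-- square roots close to one -/
theorem sq_root {z : K} (h : ‖z - 1‖ ≤ 1 / 8) : ∃ w : K, w ^ 2 = z ∧ ‖w - 1‖ ≤ 2 * ‖z - 1‖ := by
  have h2 : ‖(2 : ℤ_[2])‖ = 1 / 2 := by simpa using PadicInt.norm_p (p := 2)
  let u : ℤ_[2] := ⟨z, (nrm_one (h.trans_lt (by norm_num))).le⟩
  have h1 : (X ^ 2 - C u : ℤ_[2][X]).aeval (1 : ℤ_[2]) = 1 - u := by simp
  have h3 : (X ^ 2 - C u : ℤ_[2][X]).derivative.aeval (1 : ℤ_[2]) = 2 := by
    simp [one_add_one_eq_two]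
  obtain ⟨w, hw, lt, -⟩ := hensels_lemma (F := (X ^ 2 - C u : ℤ_[2][X])) (a := (1 : ℤ_[2])) (by
    rw [h1, h3, h2, norm_sub_rev]
    exact lt_of_le_of_lt h (by norm_num))
  have e : (w : K) ^ 2 = z := by
    have : w ^ 2 - u = 0 := by simpa using hw
    rw [sub_eq_zero] at this
    rw [← PadicInt.coe_pow, this]
  rw [h3, h2] at lt
  have lt' : ‖(w : K) - 1‖ < ‖(2 : K)‖ := by rw [two_K]; exact lt
  have := IsUltrametricDist.norm_add_eq_max_of_norm_ne_norm lt'.ne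
  rw [max_eq_right lt'.le, two_K] at this
  refine ⟨w, e, ?_⟩
  rw [← e, show (w : K) ^ 2 - 1 = (w - 1) * (w - 1 + 2) by ring, norm_mul, this]
  linarith

theorem pw_root (n : ℕ) {z : K} (h : 2 ^ n * ‖z - 1‖ ≤ 1 / 4) :
    ∃ w : K, w ^ 2 ^ n = z ∧ ‖w - 1‖ ≤ 2 ^ n * ‖z - 1‖ := by
  induction n generalizing z with
  | zero => exact ⟨z, by simp, by simp⟩
  | succ n ih =>
    have p : (1 : ℝ) ≤ 2 ^ n := one_le_pow₀ one_le_two
    rw [pow_succ] at h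
    obtain ⟨w, e, k⟩ := sq_root (z := z) (by nlinarith [norm_nonneg (z - 1)])
    obtain ⟨v, e', k'⟩ := ih (z := w) (by nlinarith)
    exact ⟨v, by rw [pow_succ, pow_mul, e', e], by rw [pow_succ]; nlinarith⟩

end Vale.Agent.P014T.Ah
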